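import Vale.Agent.P181.H382.H242.DefsU
import Vale.Agent.P181.RH.UDefs
import Vale.Agent.P181.PL.Basic
import Vale.Agent.P181.H530.Zero

set_option autoImplicit false

/-!
# P181, LSU [U5]: `TwoLongU → RH.NearA → RhoU`
-/

namespace Vale.Agent.P181.H382.H749

open Vale.Agent.P181
open Vale.Agent.P181.T4 (ex)
open Vale.Agent.P181.H280 (plethMult)
open Vale.Agent.P181.PL (dn exlt dn_succ dn_anti)
open Vale.Agent.P181.TL (dn2)
open Vale.Agent.P181.H382.H242

/-- `M (log (2 + x)) ^ 2 ≤ x` for large `x`. -/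
theorem ev_sq (M : ℝ) : ∃ x₀ : ℝ, ∀ x : ℝ, x₀ ≤ x → M * Real.log (2 + x) ^ 2 ≤ x := by
  have h1 : ∀ᶠ y : ℝ in Filter.atTop, ‖Real.log y ^ 2‖ ≤ 1 / (2 * (|M| + 1)) * ‖id y‖ :=
    (Real.isLittleO_pow_log_id_atTop (n := 2)).bound (by positivity)
  obtain ⟨y₀, hy⟩ := Filter.eventually_atTop.1 h1
  refine ⟨max y₀ 2, fun x hx => ?_⟩
  have hx2 : (2 : ℝ) ≤ x := (le_max_right _ _).trans hx
  have h2 := hy (2 + x) (by linarith [(le_max_left y₀ 2).trans hx])
  rw [Real.norm_of_nonneg (by positivity), id, Real.norm_of_nonneg (by linarith)] at h2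
  have hM : 0 < 2 * (|M| + 1) := by positivity
  calc M * Real.log (2 + x) ^ 2 ≤ (|M| + 1) * Real.log (2 + x) ^ 2 :=
        mul_le_mul_of_nonneg_right (by linarith [le_abs_self M]) (by positivity)
    _ ≤ (|M| + 1) * (1 / (2 * (|M| + 1)) * (2 + x)) :=
        mul_le_mul_of_nonneg_left h2 (by positivity)
    _ = (2 + x) / 2 := by
        field_simp
    _ ≤ x := by linarith

/-- The loss of `NearA` is small. -/
theorem small {l G A C : ℝ} (hl : 1 ≤ l) (hG : 1 ≤ G) (hA : 0 < A) (hC : 30 * A ≤ C)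
    (h : C * G * (1 + Real.log G) ≤ l) (h3 : 100 * A ^ 2 * Real.log (2 + l) ^ 2 ≤ l) :
    A * G * Real.log (2 + l) ≤ l / 10 := by
  have hlG : 0 ≤ Real.log G := Real.log_nonneg hG
  have hL : 0 ≤ Real.log (2 + l) := Real.log_nonneg (by linarith)
  have hG0 : 0 < G := by linarith
  rcases le_or_gt (G ^ 2) l with hG2 | hG2
  · refine le_of_pow_le_pow_left₀ two_ne_zero (by linarith) ?_
    calc (A * G * Real.log (2 + l)) ^ 2 = G ^ 2 * (A ^ 2 * Real.log (2 + l) ^ 2) := by ring
      _ ≤ l * (A ^ 2 * Real.log (2 + l) ^ 2) :=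
          mul_le_mul_of_nonneg_right hG2 (by positivity)
      _ ≤ l * (l / 100) := mul_le_mul_of_nonneg_left (by linarith) (by linarith)
      _ = (l / 10) ^ 2 := by ring
  · have h4 : Real.log l ≤ 2 * Real.log G := by
      have := Real.log_le_log (by linarith : 0 < l) hG2.le
      rw [Real.log_pow] at this
      exact_mod_cast this
    have h5 : Real.log (2 + l) ≤ 3 * (1 + Real.log G) := by
      have e1 : Real.log (2 + l) ≤ Real.log (3 * l) :=
        Real.log_le_log (by linarith) (by linarith)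
      rw [Real.log_mul (by norm_num) (by linarith)] at e1
      have e2 : Real.log 3 ≤ 3 - 1 := Real.log_le_sub_one_of_pos (by norm_num)
      linarith
    calc A * G * Real.log (2 + l) ≤ A * G * (3 * (1 + Real.log G)) :=
          mul_le_mul_of_nonneg_left h5 (by positivity)
      _ = (30 * A) * G * (1 + Real.log G) / 10 := by ring
      _ ≤ C * G * (1 + Real.log G) / 10 := by
          refine div_le_div_of_nonneg_right ?_ (by norm_num)
          exact mul_le_mul_of_nonneg_right (mul_le_mul_of_nonneg_right hC hG0.le) (by linarith)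
      _ ≤ l / 10 := by linarith

/-- The numbers. -/
theorem nums {a b w D x C U A : ℝ} (ha : 1 ≤ a) (hab : a < b) (hx : w = x + D) (hD : 0 < D)
    (hDw : D ≤ w) (hw : w ≤ a * b) (hU : 1 ≤ U) (hA : 0 < A) (hC1 : 2000 * U ≤ C)
    (hC2 : 30 * A ≤ C) (hC3 : ∀ l, C ≤ l → 100 * A ^ 2 * Real.log (2 + l) ^ 2 ≤ l)
    (h : C * b * (1 + Real.log (b / (b - a))) ≤ (b - a) * Real.log (w * D / b ^ 3))
    (hn : ¬ A * b * Real.log (2 + Real.log a) ≤ (b - a) * Real.log (D / a)) :
    U ≤ a ∧ U * b * (b / (b - a)) ≤ x ∧ U * b * (b / (b - a)) ^ 2 * D ≤ a * x ∧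
      U * b * (1 + Real.log (b / (b - a))) ≤ (b - a) * Real.log (x * D / b ^ 3) := by
  have ha0 : 0 < a := by linarith
  have hb0 : 0 < b := by linarith
  have hba : 0 < b - a := by linarith
  have hw0 : 0 < w := by linarith
  have hC0 : 0 < C := by linarith
  obtain ⟨G, hG⟩ : ∃ G, G = b / (b - a) := ⟨_, rfl⟩
  have hG1 : 1 ≤ G := by
    rw [hG, one_le_div hba]
    linarith
  have hbG : b = G * (b - a) := by
    rw [hG, div_mul_cancel₀ _ hba.ne']
  rw [← hG] at h ⊢
  have hlG : 0 ≤ Real.log G := Real.log_nonneg hG1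
  have hG0 : 0 < G := by linarith
  have hGL : 1 ≤ G * (1 + Real.log G) := one_le_mul_of_one_le_of_one_le hG1 (by linarith)
  obtain ⟨r, hr⟩ : ∃ r, r = w * D / b ^ 3 := ⟨_, rfl⟩
  have hb3 : 0 < b ^ 3 := by positivity
  have hr0 : 0 < r := by
    rw [hr]
    positivity
  have h1 : C * G * (1 + Real.log G) ≤ Real.log r := by
    refine le_of_mul_le_mul_left ?_ hba
    rw [← hr] at h
    calc (b - a) * (C * G * (1 + Real.log G)) = C * (G * (b - a)) * (1 + Real.log G) := by ring
      _ = C * b * (1 + Real.log G) := by rw [← hbG]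
      _ ≤ _ := h
  have hCG : C ≤ C * G * (1 + Real.log G) := by
    calc C = C * 1 := (mul_one C).symm
      _ ≤ C * (G * (1 + Real.log G)) := mul_le_mul_of_nonneg_left hGL hC0.le
      _ = _ := by ring
  have hra : r ≤ a := by
    rw [hr, div_le_iff₀ hb3]
    calc w * D ≤ (a * b) * (a * b) := mul_le_mul hw (hDw.trans hw) hD.le (by positivity)
      _ = a * (a * b ^ 2) := by ring
      _ ≤ a * (b * b ^ 2) :=
          mul_le_mul_of_nonneg_left (mul_le_mul_of_nonneg_right hab.le (by positivity)) ha0.le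
      _ = a * b ^ 3 := by ring
  obtain ⟨l, hl⟩ : ∃ l, l = Real.log a := ⟨_, rfl⟩
  have hrl : Real.log r ≤ l := by
    rw [hl]
    exact Real.log_le_log hr0 hra
  have hlC : C ≤ l := hCG.trans (h1.trans hrl)
  have hl1 : 1 ≤ l := by linarith
  have hGl : G ≤ l := by
    refine le_trans ?_ (h1.trans hrl)
    calc G ≤ C * G := le_mul_of_one_le_left hG0.le (by linarith)
      _ ≤ C * G * (1 + Real.log G) := le_mul_of_one_le_right (by positivity) (by linarith)
  rw [← hl] at hn
  have h2 : Real.log (D / a) ≤ l / 10 := by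
    refine le_trans ?_ (small hl1 hG1 hA hC2 (h1.trans hrl) (hC3 l hlC))
    rw [not_le] at hn
    refine le_of_mul_le_mul_left ?_ hba
    calc (b - a) * Real.log (D / a) ≤ A * b * Real.log (2 + l) := hn.le
      _ = A * (G * (b - a)) * Real.log (2 + l) := by rw [← hbG]
      _ = _ := by ring
  obtain ⟨t, ht⟩ : ∃ t, t = Real.exp (l / 10) := ⟨_, rfl⟩
  have ht0 : 0 < t := by
    rw [ht]
    exact Real.exp_pos _
  have hta : t ^ 10 = a := by
    rw [ht, ← Real.exp_nat_mul, hl]
    have e : ((10 : ℕ) : ℝ) * (Real.log a / 10) = Real.log a := by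
      push_cast
      ring
    rw [e, Real.exp_log ha0]
  have htl : l / 10 + 1 ≤ t := by
    rw [ht]
    exact Real.add_one_le_exp _
  have htU : 200 * U ≤ t := by linarith
  have ht1 : 1 ≤ t := by linarith
  have hDt : D ≤ t ^ 11 := by
    have e := (Real.log_le_iff_le_exp (div_pos hD ha0)).1 h2
    rw [← ht, div_le_iff₀ ha0, ← hta] at e
    calc D ≤ t * t ^ 10 := e
      _ = t ^ 11 := by ring
  have hbw : b ^ 3 ≤ w * D := by
    have e : 1 ≤ r := (Real.log_nonneg_iff hr0).1 (by linarith)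
    rwa [hr, one_le_div hb3] at e
  have hbt : t ^ 10 ≤ b := by
    rw [hta]
    exact hab.le
  have hw9 : b * t ^ 9 ≤ w := by
    have e : (b * t ^ 9) * t ^ 11 ≤ w * t ^ 11 := by
      calc (b * t ^ 9) * t ^ 11 = b * (t ^ 10) ^ 2 := by ring
        _ ≤ b * b ^ 2 := mul_le_mul_of_nonneg_left
            (pow_le_pow_left₀ (by positivity) hbt 2) hb0.le
        _ = b ^ 3 := by ring
        _ ≤ w * D := hbw
        _ ≤ w * t ^ 11 := mul_le_mul_of_nonneg_left hDt hw0.le
    exact le_of_mul_le_mul_right e (by positivity)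
  have hp : ∀ k : ℕ, 1 ≤ t ^ k := fun k => one_le_pow₀ ht1
  have htp : ∀ k : ℕ, t ≤ t ^ (k + 1) := fun k => by
    rw [pow_succ]
    exact le_mul_of_one_le_left ht0.le (hp k)
  have h8 : t ≤ t ^ 8 := htp 7
  have h10 : t ≤ t ^ 10 := htp 9
  have h6 : t ≤ t ^ 6 := htp 5
  have hD2 : 2 * D ≤ w := by
    calc 2 * D ≤ 2 * t ^ 11 := by linarith
      _ ≤ t ^ 8 * t ^ 11 := by
          refine mul_le_mul_of_nonneg_right ?_ (by positivity)
          linarith
      _ = t ^ 10 * t ^ 9 := by ring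
      _ ≤ b * t ^ 9 := mul_le_mul_of_nonneg_right hbt (by positivity)
      _ ≤ w := hw9
  have hxw : w / 2 ≤ x := by linarith
  have hx9 : b * t ^ 9 / 2 ≤ x := by linarith
  have hx0 : 0 < x := by linarith
  have hGt : G ≤ 10 * t := by linarith
  refine ⟨?_, ?_, ?_, ?_⟩
  · rw [← hta]
    linarith
  · refine le_trans ?_ hx9
    calc U * b * G ≤ U * b * (10 * t) := mul_le_mul_of_nonneg_left hGt (by positivity)
      _ = b * ((20 * U) * t) / 2 := by ring
      _ ≤ b * (t ^ 8 * t) / 2 := by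
          refine div_le_div_of_nonneg_right (mul_le_mul_of_nonneg_left
            (mul_le_mul_of_nonneg_right ?_ ht0.le) hb0.le) (by norm_num)
          linarith
      _ = b * t ^ 9 / 2 := by ring
  · calc U * b * G ^ 2 * D ≤ U * b * (10 * t) ^ 2 * t ^ 11 :=
          mul_le_mul (mul_le_mul_of_nonneg_left (pow_le_pow_left₀ hG0.le hGt 2) (by positivity))
            hDt hD.le (by positivity)
      _ = b * ((200 * U) * t ^ 13) / 2 := by ring
      _ ≤ b * (t ^ 6 * t ^ 13) / 2 := by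
          refine div_le_div_of_nonneg_right (mul_le_mul_of_nonneg_left
            (mul_le_mul_of_nonneg_right ?_ (by positivity)) hb0.le) (by norm_num)
          linarith
      _ = t ^ 10 * (b * t ^ 9 / 2) := by ring
      _ ≤ a * x := by
          rw [hta]
          exact mul_le_mul_of_nonneg_left hx9 ha0.le
  · have e1 : Real.log r - Real.log 2 ≤ Real.log (x * D / b ^ 3) := by
      rw [← Real.log_div hr0.ne' (by norm_num)]
      refine Real.log_le_log (by positivity) ?_
      rw [hr, div_right_comm]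
      refine div_le_div_of_nonneg_right ?_ hb3.le
      calc w * D / 2 = w / 2 * D := by ring
        _ ≤ x * D := mul_le_mul_of_nonneg_right hxw hD.le
    have e2 : Real.log 2 ≤ 2 - 1 := Real.log_le_sub_one_of_pos (by norm_num)
    have e3 : U * G * (1 + Real.log G) + 1 ≤ C * G * (1 + Real.log G) := by
      calc U * G * (1 + Real.log G) + 1
          ≤ U * G * (1 + Real.log G) + G * (1 + Real.log G) := by linarith
        _ = (U + 1) * (G * (1 + Real.log G)) := by ring
        _ ≤ C * (G * (1 + Real.log G)) :=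
            mul_le_mul_of_nonneg_right (by linarith) (by linarith)
        _ = _ := by ring
    calc U * b * (1 + Real.log G) = U * (G * (b - a)) * (1 + Real.log G) := by rw [← hbG]
      _ = (b - a) * (U * G * (1 + Real.log G)) := by ring
      _ ≤ (b - a) * Real.log (x * D / b ^ 3) :=
          mul_le_mul_of_nonneg_left (by linarith) hba.le

lemma dn_le_sum {n : ℕ} (lam : Fin n → ℕ) (j : ℕ) : dn lam j ≤ ∑ i, lam i := by
  unfold dn
  apply Finset.sum_le_sum
  intro i _
  split_ifs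
  · exact le_rfl
  · exact Nat.zero_le _

lemma dn2_eq {k : ℕ} (lam : Fin (k + 2) → ℕ) : dn2 lam = dn lam 2 := by
  unfold dn2 dn
  rw [Fin.sum_univ_succ, Fin.sum_univ_succ]
  simp

lemma dn_small {n : ℕ} (lam : Fin n → ℕ) (hn : n ≤ 2) : dn lam 2 = 0 := by
  unfold dn
  apply Finset.sum_eq_zero
  intro i _
  rw [if_neg]
  have := i.2
  omega

/-- **[U5]** -/
theorem rhoU_of (hT : TwoLongU) (hN : RH.NearA) : RhoU := by
  obtain ⟨U, hU, hT⟩ := hT
  obtain ⟨A, hA, hN⟩ := hN
  obtain ⟨x₀, hx₀⟩ := ev_sq (100 * A ^ 2)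
  obtain ⟨C, hC⟩ : ∃ C : ℝ, C = 2000 * U + 30 * A + |x₀| + 1 := ⟨_, rfl⟩
  have hx0 : 0 ≤ |x₀| := abs_nonneg _
  have hC0 : 0 < C := by linarith
  refine ⟨C, hC0, ?_⟩
  intro a b hab n lam h
  by_cases hz : plethMult a b n lam = 0
  · rw [hz]
    exact Nat.zero_le _
  obtain ⟨hanti, hsum, -⟩ := H530.zero_stmt a b n lam hz
  by_contra hcon
  have hab' : (a : ℝ) < b := by exact_mod_cast hab
  have ha0' : (0 : ℝ) ≤ a := Nat.cast_nonneg a
  have hb0 : (0 : ℝ) < b := by linarith
  have hba : (0 : ℝ) < b - a := by linarith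
  have hb3 : (0 : ℝ) < (b : ℝ) ^ 3 := by positivity
  have hG1 : (1 : ℝ) ≤ (b : ℝ) / (b - a) := by
    rw [one_le_div hba]
    linarith
  have hlG : 0 ≤ Real.log ((b : ℝ) / (b - a)) := Real.log_nonneg hG1
  have hpos : 0 < C * b * (1 + Real.log ((b : ℝ) / (b - a))) := by positivity
  have hlog : 0 < Real.log ((dn lam 1 : ℝ) * dn lam 2 / b ^ 3) :=
    pos_of_mul_pos_right (lt_of_lt_of_le hpos h) hba.le
  have hD : dn lam 2 ≠ 0 := by
    intro e
    rw [e, Nat.cast_zero, mul_zero, zero_div, Real.log_zero] at hlog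
    exact lt_irrefl _ hlog
  have hDw : dn lam 2 ≤ dn lam 1 := dn_anti lam (by norm_num)
  have hw : dn lam 1 ≤ a * b := by
    rw [← hsum]
    exact dn_le_sum lam 1
  have ha : 1 ≤ a := by
    rcases Nat.eq_zero_or_pos a with e | e
    · rw [e, Nat.zero_mul] at hw
      omega
    · exact e
  have hn : 3 ≤ n := by
    by_contra hn
    exact hD (dn_small lam (by omega))
  obtain ⟨k, rfl⟩ : ∃ k, n = k + 3 := ⟨n - 3, by omega⟩
  have hx : dn lam 1 = lam 1 + dn lam 2 := by
    rw [dn_succ, exlt lam (show 1 < k + 3 by omega)]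
    rfl
  have hd2 : dn2 lam = dn lam 2 := dn2_eq lam
  have hm := nums (a := a) (b := b) (w := dn lam 1) (D := dn lam 2) (x := lam 1) (C := C) (U := U)
    (A := A) (by exact_mod_cast ha) hab' (by exact_mod_cast hx)
    (by exact_mod_cast Nat.pos_of_ne_zero hD) (by exact_mod_cast hDw) (by exact_mod_cast hw) hU hA
    (by linarith) (by linarith) (fun l hl => hx₀ l (by linarith [le_abs_self x₀])) h
    (fun e => hcon (hN a b hab.le (k + 3) lam e))
  obtain ⟨h1, h2, h3, h4⟩ := hm
  refine hcon (hT a b k lam (hanti (Fin.zero_le _)) hsum hab h1 h2 ?_ ?_)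
  · rw [hd2]
    exact h3
  · rw [hd2]
    exact h4

end Vale.Agent.P181.H382.H749
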