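import Vale.Agent.P181.H382.H749.RhoU
import Vale.Agent.P181.H382.H382.UDefs
import Vale.Agent.P181.H382.H112.DefsU

set_option autoImplicit false

/-!
# P181, LSU: `U.TwoLongSU → RH.NearA → U.RhoU`
-/

namespace Vale.Agent.P181.H382.H749

open Vale.Agent.P181
open Vale.Agent.P181.T4 (ex)
open Vale.Agent.P181.H280 (plethMult)
open Vale.Agent.P181.PL (dn exlt dn_succ dn_anti)
open Vale.Agent.P181.TL (dn2)

/-- The loss of `NearA` is small. -/
theorem smallM {l G A C M : ℝ} (hM : 0 < M) (hl : 1 ≤ l) (hG : 1 ≤ G) (hA : 0 < A)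
    (hC : 3 * M * A ≤ C) (h : C * G * (1 + Real.log G) ≤ l)
    (h3 : (M * A) ^ 2 * Real.log (2 + l) ^ 2 ≤ l) :
    A * G * Real.log (2 + l) ≤ l / M := by
  have hlG : 0 ≤ Real.log G := Real.log_nonneg hG
  have hL : 0 ≤ Real.log (2 + l) := Real.log_nonneg (by linarith)
  have hG0 : 0 < G := by linarith
  rw [le_div_iff₀ hM]
  rcases le_or_gt (G ^ 2) l with hG2 | hG2
  · refine le_of_pow_le_pow_left₀ two_ne_zero (by linarith) ?_
    calc (A * G * Real.log (2 + l) * M) ^ 2
        = G ^ 2 * ((M * A) ^ 2 * Real.log (2 + l) ^ 2) := by ring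
      _ ≤ l * ((M * A) ^ 2 * Real.log (2 + l) ^ 2) :=
          mul_le_mul_of_nonneg_right hG2 (by positivity)
      _ ≤ l * l := mul_le_mul_of_nonneg_left h3 (by linarith)
      _ = l ^ 2 := by ring
  · have h4 : Real.log l ≤ 2 * Real.log G := by
      have := Real.log_le_log (by linarith : 0 < l) hG2.le
      rw [Real.log_pow] at this
      exact_mod_cast this
    have h5 : Real.log (2 + l) ≤ 3 * (1 + Real.log G) := by
      have e1 : Real.log (2 + l) ≤ Real.log (3 * l) :=
        Real.log_le_log (by linarith) (by linarith)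
      rw [Real.log_mul (by norm_num) (by linarith)] at e1
      have e2 : Real.log 3 ≤ 3 - 1 := Real.log_le_sub_one_of_pos (by norm_num)
      linarith
    calc A * G * Real.log (2 + l) * M ≤ A * G * (3 * (1 + Real.log G)) * M :=
          mul_le_mul_of_nonneg_right (mul_le_mul_of_nonneg_left h5 (by positivity)) hM.le
      _ = (3 * M * A) * G * (1 + Real.log G) := by ring
      _ ≤ C * G * (1 + Real.log G) :=
          mul_le_mul_of_nonneg_right (mul_le_mul_of_nonneg_right hC hG0.le) (by linarith)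
      _ ≤ l := h

/-- The numbers. -/
theorem numsM {a b w D x C U A : ℝ} (c : ℕ) (ha : 1 ≤ a) (hab : a < b) (hx : w = x + D)
    (hD : 0 < D) (hDw : D ≤ w) (hw : w ≤ a * b) (hU : 1 ≤ U) (hA : 0 < A)
    (hC1 : 2 * (2 * c + 3) * (U + 2 * c + 3) ≤ C) (hC2 : 2 * (3 * (2 * c + 3) * A) ≤ C)
    (hC3 : ∀ l, C / 2 ≤ l → ((2 * c + 3) * A) ^ 2 * Real.log (2 + l) ^ 2 ≤ l)
    (h : C * b * Real.log (2 * b / (b - a)) ≤ (b - a) * Real.log (w * D / b ^ 3))
    (hn : ¬ A * b * Real.log (2 + Real.log a) ≤ (b - a) * Real.log (D / a)) :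
    ∃ Λ : ℝ, 1 ≤ Λ ∧ U * Λ ^ c ≤ a ∧ b ≤ Λ * a ∧ b ≤ Λ * (b - a) ∧ a ^ 2 ≤ Λ * x ∧
      U * Λ ^ c * D ≤ a ^ 2 ∧
      U * b * Real.log (2 * b / (b - a)) ≤ (b - a) * Real.log (x * D / b ^ 3) := by
  have ha0 : 0 < a := by linarith
  have hb0 : 0 < b := by linarith
  have hba : 0 < b - a := by linarith
  have hw0 : 0 < w := by linarith
  obtain ⟨M, hM⟩ : ∃ M : ℝ, M = 2 * c + 3 := ⟨_, rfl⟩
  have hc0 : (0 : ℝ) ≤ c := Nat.cast_nonneg c
  have hM3 : 3 ≤ M := by linarith
  have hM0 : 0 < M := by linarith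
  have hC1' : 2 * M * (U + M) ≤ C := by
    calc 2 * M * (U + M) = 2 * (2 * c + 3) * (U + 2 * c + 3) := by rw [hM]; ring
      _ ≤ C := hC1
  have hC2' : 3 * M * A ≤ C / 2 := by
    rw [hM]
    linarith
  have hC3' : ∀ l, C / 2 ≤ l → (M * A) ^ 2 * Real.log (2 + l) ^ 2 ≤ l := by
    rw [hM]
    exact hC3
  have hMU : M * (U + M) ≤ C / 2 := by linarith
  have hUC : U + 1 ≤ C := by
    have : 1 * (U + M) ≤ M * (U + M) := mul_le_mul_of_nonneg_right (by linarith) (by linarith)
    linarith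
  have hC0 : 0 < C := by linarith
  obtain ⟨G, hG⟩ : ∃ G, G = b / (b - a) := ⟨_, rfl⟩
  have hG1 : 1 ≤ G := by
    rw [hG, one_le_div hba]
    linarith
  have hbG : b = G * (b - a) := by
    rw [hG, div_mul_cancel₀ _ hba.ne']
  have hG0 : 0 < G := by linarith
  have h2G : 2 * b / (b - a) = 2 * G := by rw [hG]; ring
  rw [h2G] at h ⊢
  have hl2 : Real.log (2 * G) = Real.log 2 + Real.log G := Real.log_mul (by norm_num) hG0.ne'
  have hlog2 : (1 / 2 : ℝ) ≤ Real.log 2 := by linarith [Real.log_two_gt_d9]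
  have hlG : 0 ≤ Real.log G := Real.log_nonneg hG1
  have hGL : 1 ≤ G * (1 + Real.log G) := one_le_mul_of_one_le_of_one_le hG1 (by linarith)
  obtain ⟨r, hr⟩ : ∃ r, r = w * D / b ^ 3 := ⟨_, rfl⟩
  have hb3 : 0 < b ^ 3 := by positivity
  have hr0 : 0 < r := by
    rw [hr]
    positivity
  have h0 : C * G * Real.log (2 * G) ≤ Real.log r := by
    refine le_of_mul_le_mul_left ?_ hba
    rw [← hr] at h
    calc (b - a) * (C * G * Real.log (2 * G)) = C * (G * (b - a)) * Real.log (2 * G) := by ring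
      _ = C * b * Real.log (2 * G) := by rw [← hbG]
      _ ≤ _ := h
  have h1 : C / 2 * G * (1 + Real.log G) ≤ Real.log r := by
    refine le_trans ?_ h0
    calc C / 2 * G * (1 + Real.log G) = C * G * (1 / 2 + Real.log G / 2) := by ring
      _ ≤ C * G * Real.log (2 * G) :=
          mul_le_mul_of_nonneg_left (by rw [hl2]; linarith) (by positivity)
  have hCG : C / 2 ≤ C / 2 * G * (1 + Real.log G) := by
    calc C / 2 = C / 2 * 1 := (mul_one _).symm
      _ ≤ C / 2 * (G * (1 + Real.log G)) := mul_le_mul_of_nonneg_left hGL (by linarith)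
      _ = _ := by ring
  have hra : r ≤ a := by
    rw [hr, div_le_iff₀ hb3]
    calc w * D ≤ (a * b) * (a * b) := mul_le_mul hw (hDw.trans hw) hD.le (by positivity)
      _ = a * (a * b ^ 2) := by ring
      _ ≤ a * (b * b ^ 2) :=
          mul_le_mul_of_nonneg_left (mul_le_mul_of_nonneg_right hab.le (by positivity)) ha0.le
      _ = a * b ^ 3 := by ring
  obtain ⟨l, hl⟩ : ∃ l, l = Real.log a := ⟨_, rfl⟩
  have hrl : Real.log r ≤ l := by
    rw [hl]
    exact Real.log_le_log hr0 hra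
  have hlC : C / 2 ≤ l := hCG.trans (h1.trans hrl)
  have hMM : 1 ≤ M * (U + M) := one_le_mul_of_one_le_of_one_le (by linarith) (by linarith)
  have hl1 : 1 ≤ l := by linarith
  have hGl : G ≤ l := by
    refine le_trans ?_ (h1.trans hrl)
    calc G ≤ C / 2 * G := le_mul_of_one_le_left hG0.le (by linarith)
      _ ≤ C / 2 * G * (1 + Real.log G) := le_mul_of_one_le_right (by positivity) (by linarith)
  rw [← hl] at hn
  have h2 : Real.log (D / a) ≤ l / M := by
    refine le_trans ?_ (smallM hM0 hl1 hG1 hA hC2' (h1.trans hrl) (hC3' l hlC))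
    rw [not_le] at hn
    refine le_of_mul_le_mul_left ?_ hba
    calc (b - a) * Real.log (D / a) ≤ A * b * Real.log (2 + l) := hn.le
      _ = A * (G * (b - a)) * Real.log (2 + l) := by rw [← hbG]
      _ = _ := by ring
  obtain ⟨t, ht⟩ : ∃ t, t = Real.exp (l / M) := ⟨_, rfl⟩
  have ht0 : 0 < t := by
    rw [ht]
    exact Real.exp_pos _
  have hta : t ^ (2 * c + 3) = a := by
    rw [ht, ← Real.exp_nat_mul, hl]
    have e : ((2 * c + 3 : ℕ) : ℝ) * (Real.log a / M) = Real.log a := by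
      rw [hM]
      push_cast
      field_simp
    rw [e, Real.exp_log ha0]
  have htl : l / M + 1 ≤ t := by
    rw [ht]
    exact Real.add_one_le_exp _
  have htU : U + M ≤ t := by
    have e : U + M ≤ l / M := by
      rw [le_div_iff₀ hM0]
      linarith
    linarith
  have ht1 : 1 ≤ t := by linarith
  have hDt : D ≤ t * a := by
    have e := (Real.log_le_iff_le_exp (div_pos hD ha0)).1 h2
    rwa [← ht, div_le_iff₀ ha0] at e
  have hbw : b ^ 3 ≤ w * D := by
    have e : 1 ≤ r := (Real.log_nonneg_iff hr0).1 (by linarith)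
    rwa [hr, one_le_div hb3] at e
  have hbt : b ≤ t * a := by
    refine le_of_pow_le_pow_left₀ two_ne_zero (by positivity) ?_
    refine le_of_mul_le_mul_right ?_ hb0
    calc b ^ 2 * b = b ^ 3 := by ring
      _ ≤ w * D := hbw
      _ ≤ (a * b) * (t * a) := mul_le_mul hw hDt hD.le (by positivity)
      _ = t * (a ^ 2 * b) := by ring
      _ ≤ t ^ 2 * (a ^ 2 * b) := by
          refine mul_le_mul_of_nonneg_right ?_ (by positivity)
          calc t = t * 1 := (mul_one t).symm
            _ ≤ t * t := mul_le_mul_of_nonneg_left ht1 ht0.le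
            _ = t ^ 2 := by ring
      _ = (t * a) ^ 2 * b := by ring
  have ht2 : t ≤ t ^ 2 := by
    calc t = t * 1 := (mul_one t).symm
      _ ≤ t * t := mul_le_mul_of_nonneg_left ht1 ht0.le
      _ = t ^ 2 := by ring
  have h2t3 : 2 * t ^ 2 ≤ a := by
    rw [← hta]
    calc 2 * t ^ 2 ≤ t * t ^ 2 := mul_le_mul_of_nonneg_right (by linarith) (by positivity)
      _ = t ^ 3 := by ring
      _ ≤ t ^ (2 * c + 3) := pow_le_pow_right₀ ht1 (by omega)
  have hab3 : a ^ 3 ≤ b ^ 3 := pow_le_pow_left₀ ha0.le hab.le 3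
  have haw : a ^ 2 ≤ w * t := by
    refine le_of_mul_le_mul_right ?_ ha0
    calc a ^ 2 * a = a ^ 3 := by ring
      _ ≤ b ^ 3 := hab3
      _ ≤ w * D := hbw
      _ ≤ w * (t * a) := mul_le_mul_of_nonneg_left hDt hw0.le
      _ = w * t * a := by ring
  have hD2 : 2 * D ≤ w := by
    refine le_of_mul_le_mul_right ?_ ht0
    calc 2 * D * t ≤ 2 * (t * a) * t :=
          mul_le_mul_of_nonneg_right (by linarith) ht0.le
      _ = (2 * t ^ 2) * a := by ring
      _ ≤ a * a := mul_le_mul_of_nonneg_right h2t3 ha0.le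
      _ = a ^ 2 := by ring
      _ ≤ w * t := haw
  have hxw : w / 2 ≤ x := by linarith
  have hx0 : 0 < x := by linarith
  have hUp : U * (t ^ 2) ^ c ≤ t ^ (2 * c + 1) := by
    calc U * (t ^ 2) ^ c ≤ t * (t ^ 2) ^ c :=
          mul_le_mul_of_nonneg_right (by linarith) (by positivity)
      _ = t ^ (2 * c + 1) := by rw [← pow_mul]; ring
  refine ⟨t ^ 2, one_le_pow₀ ht1, ?_, ?_, ?_, ?_, ?_, ?_⟩
  · refine hUp.trans ?_
    rw [← hta]
    exact pow_le_pow_right₀ ht1 (by omega)
  · exact hbt.trans (mul_le_mul_of_nonneg_right ht2 ha0.le)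
  · have hGt : G ≤ t ^ 2 := by
      have e : l ≤ M * t := by
        have := (div_le_iff₀ hM0).1 (show l / M ≤ t by linarith)
        linarith
      calc G ≤ M * t := hGl.trans e
        _ ≤ t * t := mul_le_mul_of_nonneg_right (by linarith) ht0.le
        _ = t ^ 2 := by ring
    calc b = G * (b - a) := hbG
      _ ≤ t ^ 2 * (b - a) := mul_le_mul_of_nonneg_right hGt hba.le
  · calc a ^ 2 ≤ w * t := haw
      _ ≤ (2 * x) * t := mul_le_mul_of_nonneg_right (by linarith) ht0.le
      _ = 2 * (x * t) := by ring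
      _ ≤ t * (x * t) := mul_le_mul_of_nonneg_right (by linarith) (by positivity)
      _ = t ^ 2 * x := by ring
  · calc U * (t ^ 2) ^ c * D ≤ t ^ (2 * c + 1) * (t * a) :=
          mul_le_mul hUp hDt hD.le (by positivity)
      _ = t ^ (2 * c + 2) * a := by ring
      _ ≤ t ^ (2 * c + 3) * a :=
          mul_le_mul_of_nonneg_right (pow_le_pow_right₀ ht1 (by omega)) ha0.le
      _ = a ^ 2 := by rw [hta]; ring
  · have e1 : Real.log r - Real.log 2 ≤ Real.log (x * D / b ^ 3) := by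
      rw [← Real.log_div hr0.ne' (by norm_num)]
      refine Real.log_le_log (by positivity) ?_
      rw [hr, div_right_comm]
      refine div_le_div_of_nonneg_right ?_ hb3.le
      calc w * D / 2 = w / 2 * D := by ring
        _ ≤ x * D := mul_le_mul_of_nonneg_right hxw hD.le
    have e2 : Real.log 2 ≤ G * Real.log (2 * G) := by
      calc Real.log 2 ≤ Real.log (2 * G) := by rw [hl2]; linarith
        _ ≤ G * Real.log (2 * G) := le_mul_of_one_le_left (by rw [hl2]; linarith) hG1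
    have e3 : U * G * Real.log (2 * G) + Real.log 2 ≤ C * G * Real.log (2 * G) := by
      calc U * G * Real.log (2 * G) + Real.log 2
          ≤ U * G * Real.log (2 * G) + G * Real.log (2 * G) := by linarith
        _ = (U + 1) * (G * Real.log (2 * G)) := by ring
        _ ≤ C * (G * Real.log (2 * G)) :=
            mul_le_mul_of_nonneg_right hUC (mul_nonneg hG0.le (by rw [hl2]; linarith))
        _ = _ := by ring
    calc U * b * Real.log (2 * G) = U * (G * (b - a)) * Real.log (2 * G) := by rw [← hbG]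
      _ = (b - a) * (U * G * Real.log (2 * G)) := by ring
      _ ≤ (b - a) * Real.log (x * D / b ^ 3) :=
          mul_le_mul_of_nonneg_left (by linarith) hba.le

/-- The union, from `U.TwoLongSU` and `RH.NearA` only. -/
theorem rhoSU_of (hT : U.TwoLongSU) (hN : RH.NearA) : U.RhoU := by
  obtain ⟨U, c, hU, hT⟩ := hT
  obtain ⟨A, hA, hN⟩ := hN
  obtain ⟨x₀, hx₀⟩ := ev_sq (((2 * c + 3) * A) ^ 2)
  have hc0 : (0 : ℝ) ≤ c := Nat.cast_nonneg c
  have h1 : (0 : ℝ) ≤ 2 * (2 * c + 3) * (U + 2 * c + 3) := by positivity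
  have h2 : (0 : ℝ) ≤ 2 * (3 * (2 * c + 3) * A) := by positivity
  obtain ⟨C, hC⟩ : ∃ C : ℝ, C = 2 * (2 * c + 3) * (U + 2 * c + 3) +
    2 * (3 * (2 * c + 3) * A) + 2 * |x₀| + 1 := ⟨_, rfl⟩
  have hx0 : 0 ≤ |x₀| := abs_nonneg _
  have hC0 : 0 < C := by linarith
  refine ⟨C, hC0, ?_⟩
  intro a b hab n lam h
  by_cases hz : plethMult a b n lam = 0
  · rw [hz]
    exact Nat.zero_le _
  obtain ⟨hanti, hsum, -⟩ := H530.zero_stmt a b n lam hz
  by_contra hcon
  have hab' : (a : ℝ) < b := by exact_mod_cast hab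
  have ha0' : (0 : ℝ) ≤ a := Nat.cast_nonneg a
  have hb0 : (0 : ℝ) < b := by linarith
  have hba : (0 : ℝ) < b - a := by linarith
  have hb3 : (0 : ℝ) < (b : ℝ) ^ 3 := by positivity
  have hlG : 0 < Real.log (2 * (b : ℝ) / (b - a)) := by
    apply Real.log_pos
    rw [one_lt_div hba]
    linarith
  have hpos : 0 < C * b * Real.log (2 * (b : ℝ) / (b - a)) := by positivity
  have hlog : 0 < Real.log ((dn lam 1 : ℝ) * dn lam 2 / (b : ℝ) ^ 3) :=
    pos_of_mul_pos_right (lt_of_lt_of_le hpos h) hba.le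
  have hD : dn lam 2 ≠ 0 := by
    intro e
    rw [e, Nat.cast_zero, mul_zero, zero_div, Real.log_zero] at hlog
    exact lt_irrefl _ hlog
  have hDw : dn lam 2 ≤ dn lam 1 := dn_anti lam (by norm_num)
  have hw : dn lam 1 ≤ a * b := by
    rw [← hsum]
    exact dn_le_sum lam 1
  have ha : 1 ≤ a := by
    rcases Nat.eq_zero_or_pos a with e | e
    · rw [e, Nat.zero_mul] at hw
      omega
    · exact e
  have hn : 3 ≤ n := by
    by_contra hn
    exact hD (dn_small lam (by omega))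
  obtain ⟨k, rfl⟩ : ∃ k, n = k + 3 := ⟨n - 3, by omega⟩
  have hx : dn lam 1 = lam 1 + dn lam 2 := by
    rw [dn_succ, exlt lam (show 1 < k + 3 by omega)]
    rfl
  have hd2 : dn2 lam = dn lam 2 := dn2_eq lam
  obtain ⟨Λ, k1, k2, k3, k4, k5, k6, k7⟩ := numsM (a := a) (b := b) (w := dn lam 1)
    (D := dn lam 2) (x := lam 1) (C := C) (U := U) (A := A) c (by exact_mod_cast ha) hab'
    (by exact_mod_cast hx) (by exact_mod_cast Nat.pos_of_ne_zero hD) (by exact_mod_cast hDw)
    (by exact_mod_cast hw) hU hA (by linarith) (by linarith)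
    (fun l hl => hx₀ l (by linarith [le_abs_self x₀])) h
    (fun e => hcon (hN a b hab.le (k + 3) lam e))
  refine hcon (hT a b k lam Λ hanti hsum hab k1 k2 k3 k4 k5 ?_ ?_)
  · rw [hd2]
    exact k6
  · rw [hd2]
    exact k7

end Vale.Agent.P181.H382.H749
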